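import Vale.Agent.P247.H324.SPM.Mor

/-! Similarity principle with a Morrey coefficient and a weak derivative. -/

open MeasureTheory Set Metric Filter Topology Asymptotics
open scoped ContDiff ENNReal

set_option linter.unusedSectionVars false

noncomputable section

namespace Vale.Agent.P247.H324

open Vale.Agent.P272.CT

variable {E : Type*} [NormedAddCommGroup E] [NormedSpace ℂ E]

/-! ### weak derivative with integrable right hand side -/

theorem integrable_test {q : ℂ → E} {Ω : Set ℂ} (hq : IntegrableOn q Ω) {η : ℂ → ℂ}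
    (hη : Continuous η) (hc : HasCompactSupport η) (hs : tsupport η ⊆ Ω) :
    Integrable fun z => η z • q z := by
  obtain ⟨C, hC⟩ := hη.bounded_above_of_compact_support hc
  have h1 : IntegrableOn (fun z => η z • q z) Ω := by
    refine (hq.norm.const_mul C).mono' (hη.aestronglyMeasurable.smul hq.1) ?_
    refine Eventually.of_forall fun z => ?_
    rw [norm_smul]
    gcongr
    exact hC z
  refine (integrableOn_iff_integrable_of_support_subset ?_).1 h1
  exact (Function.support_smul_subset_left η q).trans ((subset_tsupport η).trans hs)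

theorem WDb.sub_int {Ω : Set ℂ} (hΩ : IsOpen Ω) {v q v' q' : ℂ → E} (hv : ContinuousOn v Ω)
    (hv' : ContinuousOn v' Ω) (hq : IntegrableOn q Ω) (hq' : IntegrableOn q' Ω)
    (h : WDb Ω v q) (h' : WDb Ω v' q') :
    WDb Ω (fun z => v z - v' z) fun z => q z - q' z := by
  intro η h1 h2 h3
  have hd := contDiff_dbar h1
  have i1 : Integrable fun z => dbar η z • v z :=
    integrable_smul_of_tsupport hΩ hd.continuous (hasCompactSupport_dbar h2) hv
      ((tsupport_dbar η).trans h3)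
  have i2 : Integrable fun z => dbar η z • v' z :=
    integrable_smul_of_tsupport hΩ hd.continuous (hasCompactSupport_dbar h2) hv'
      ((tsupport_dbar η).trans h3)
  have i3 := integrable_test hq h1.continuous h2 h3
  have i4 := integrable_test hq' h1.continuous h2 h3
  simp only [smul_sub]
  rw [integral_sub i1 i2, integral_sub i3 i4, h η h1 h2 h3, h' η h1 h2 h3]
  abel

/-- multiplication by a holomorphic function -/
theorem WDb.holo_smul {Ω : Set ℂ} (hΩ : IsOpen Ω) {v q : ℂ → E} (h : WDb Ω v q) {f : ℂ → ℂ}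
    (hf : DifferentiableOn ℂ f Ω) : WDb Ω (fun z => f z • v z) fun z => f z • q z := by
  intro η h1 h2 h3
  set ζ : ℂ → ℂ := fun z => η z * f z with hζ
  have hts : tsupport ζ ⊆ tsupport η := closure_mono (Function.support_mul_subset_left η f)
  have hfs : ContDiffOn ℝ ∞ f Ω := (hf.contDiffOn (n := ∞) hΩ).restrict_scalars ℝ
  have hζs : ContDiff ℝ ∞ ζ := by
    rw [contDiff_iff_contDiffAt]
    intro z
    by_cases hz : z ∈ tsupport ζ
    · exact h1.contDiffAt.mul (hfs.contDiffAt (hΩ.mem_nhds (h3 (hts hz))))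
    · exact contDiffAt_const.congr_of_eventuallyEq (notMem_tsupport_iff_eventuallyEq.1 hz)
  have hζc : HasCompactSupport ζ := h2.mul_right
  have key := h ζ hζs hζc (hts.trans h3)
  have e1 : ∀ z, dbar ζ z • v z = dbar η z • f z • v z := by
    intro z
    by_cases hz : z ∈ tsupport η
    · have hfz : DifferentiableAt ℂ f z := hf.differentiableAt (hΩ.mem_nhds (h3 hz))
      have e2 : dbar ζ z = dbar η z * f z := by
        have e3 := dbarV_smul (η := η) (u := f) ((h1.differentiable (by simp)) z)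
          (hfz.restrictScalars ℝ)
        have e4 : dbarV f z = 0 := (dbarV_eq_zero_iff (hfz.restrictScalars ℝ)).2 hfz
        rw [e4, smul_zero, add_zero] at e3
        exact e3
      rw [e2, mul_smul]
    · have e2 : dbar η z = 0 := by
        by_contra h4
        exact hz (tsupport_dbar η (subset_tsupport _ h4))
      have e3 : dbar ζ z = 0 := by
        by_contra h4
        exact hz (hts (tsupport_dbar ζ (subset_tsupport _ h4)))
      rw [e2, e3, zero_smul, zero_smul]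
  calc ∫ z, dbar η z • f z • v z = ∫ z, dbar ζ z • v z := by simp_rw [e1]
    _ = - ∫ z, ζ z • q z := key
    _ = - ∫ z, η z • f z • q z := by simp_rw [hζ, mul_smul]

/-! ### the estimates -/

/-- gain at the centre for the Cauchy transform -/
theorem Dom.cauT_gain {K ε A θ h : ℝ} {G : ℂ → ℝ≥0∞} {F : ℂ → E} (hF : Dom G A θ F)
    {A0 : ℝ} (hF0 : Dom G A0 0 F) (hA0 : 0 ≤ A0) (hA : 0 ≤ A) (hG : Mor K ε G) (hθ : 0 ≤ θ)
    (hh : 0 < h) (hθh : θ + h ≤ 1) (hhε : h < ε) {z : ℂ} (hz : z ≠ 0) :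
    ‖cauT F z - cauT F 0‖ ≤ 16 * (A * (K * kc (1 + h) ε)) / Real.pi * ‖z‖ ^ (θ + h) := by
  have hpi := Real.pi_pos
  have hε : 0 < ε := hh.trans hhε
  have hI := hF0.integrableOn_cau hA0 hG hε z
  have hI' := hF0.integrableOn_cau hA0 hG hε 0
  have e1 : cauT F z - cauT F 0 = ((Real.pi : ℝ) : ℂ)⁻¹ •
      ∫ w in ball (0 : ℂ) 1, ((z - w)⁻¹ - (0 - w)⁻¹) • F w := by
    rw [cauT, cauT, ← smul_sub, ← integral_sub hI hI']
    congr 1
    refine integral_congr_ae (Eventually.of_forall fun w => ?_)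
    simp only
    rw [sub_smul]
  have hne : ∀ x : ℂ, ∀ᵐ w : ℂ ∂(volume.restrict (ball (0 : ℂ) 1)), w ≠ x := by
    intro x
    refine ae_restrict_of_ae ?_
    rw [ae_iff]; simp
  have hkc := kc_pos (β := 1 + h) (ε := ε) (by linarith)
  have hKk : 0 ≤ K * kc (1 + h) ε := mul_nonneg hG.K0 hkc.le
  have e2 : ‖∫ w in ball (0 : ℂ) 1, ((z - w)⁻¹ - (0 - w)⁻¹) • F w‖ₑ ≤
      ENNReal.ofReal (8 * ‖z‖ ^ (θ + h) * A * (K * kc (1 + h) ε + K * kc (1 + h) ε)) := by
    refine (enorm_integral_le_lintegral_enorm _).trans ?_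
    calc ∫⁻ w in ball (0 : ℂ) 1, ‖((z - w)⁻¹ - (0 - w)⁻¹) • F w‖ₑ
        ≤ ∫⁻ w in ball (0 : ℂ) 1, ENNReal.ofReal (8 * ‖z‖ ^ (θ + h) * A) *
            (G w * ENNReal.ofReal (‖z - w‖ ^ (-(1+h))) + G w * ENNReal.ofReal (‖0 - w‖ ^ (-(1+h)))) := by
          refine lintegral_mono_ae ?_
          filter_upwards [hF.le, hne z, hne 0] with w hw hwz hw0
          have q := gain_kernel hθ hh hθh hz hw0 (Ne.symm hwz)
          rw [zero_sub w, norm_neg] at *
          rw [enorm_smul]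
          calc ‖(z - w)⁻¹ - (-w)⁻¹‖ₑ * ‖F w‖ₑ
              ≤ ENNReal.ofReal ‖(z - w)⁻¹ - (-w)⁻¹‖ * (G w * ENNReal.ofReal (A * ‖w‖ ^ θ)) := by
                rw [ofReal_norm]
                gcongr
            _ = G w * ENNReal.ofReal (A * (‖(z - w)⁻¹ - (-w)⁻¹‖ * ‖w‖ ^ θ)) := by
                rw [mul_left_comm, ← ENNReal.ofReal_mul (norm_nonneg _)]
                congr 2
                ring
            _ ≤ G w * ENNReal.ofReal (A * (8 * ‖z‖ ^ (θ + h) *
                  (‖z - w‖ ^ (-(1 + h)) + ‖w‖ ^ (-(1 + h))))) := by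
                gcongr
            _ = ENNReal.ofReal (8 * ‖z‖ ^ (θ + h) * A) *
                (G w * ENNReal.ofReal (‖z - w‖ ^ (-(1+h))) + G w * ENNReal.ofReal (‖w‖ ^ (-(1+h)))) := by
                rw [← mul_add, ← ENNReal.ofReal_add (by positivity) (by positivity),
                  mul_left_comm (ENNReal.ofReal (8 * ‖z‖ ^ (θ + h) * A)),
                  ← ENNReal.ofReal_mul (by positivity)]
                congr 2
                ring
      _ = ENNReal.ofReal (8 * ‖z‖ ^ (θ + h) * A) *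
            ((∫⁻ w in ball (0 : ℂ) 1, G w * ENNReal.ofReal (‖z - w‖ ^ (-(1+h)))) +
            ∫⁻ w in ball (0 : ℂ) 1, G w * ENNReal.ofReal (‖0 - w‖ ^ (-(1+h)))) := by
          have m1 : AEMeasurable (fun w => G w * ENNReal.ofReal (‖z - w‖ ^ (-(1+h))))
              (volume.restrict (ball (0:ℂ) 1)) := hG.meas.mul
            (by fun_prop : Measurable fun w : ℂ => ENNReal.ofReal (‖z - w‖ ^ (-(1+h)))).aemeasurable
          have m2 : AEMeasurable (fun w => G w * ENNReal.ofReal (‖0 - w‖ ^ (-(1+h))))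
              (volume.restrict (ball (0:ℂ) 1)) := hG.meas.mul
            (by fun_prop : Measurable fun w : ℂ => ENNReal.ofReal (‖0 - w‖ ^ (-(1+h)))).aemeasurable
          rw [← lintegral_add_left' m1]
          exact lintegral_const_mul'' _ (m1.add m2)
      _ ≤ ENNReal.ofReal (8 * ‖z‖ ^ (θ + h) * A) *
            (ENNReal.ofReal (K * kc (1 + h) ε) + ENNReal.ofReal (K * kc (1 + h) ε)) := by
          gcongr
          · exact hG.lint_kernel (by linarith) (by linarith) z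
          · exact hG.lint_kernel (by linarith) (by linarith) 0
      _ = _ := by
          rw [← ENNReal.ofReal_add hKk hKk, ← ENNReal.ofReal_mul (by positivity)]
  have e3 : ‖∫ w in ball (0 : ℂ) 1, ((z - w)⁻¹ - (0 - w)⁻¹) • F w‖ ≤
      8 * ‖z‖ ^ (θ + h) * A * (K * kc (1 + h) ε + K * kc (1 + h) ε) := by
    rw [← ofReal_norm] at e2
    exact (ENNReal.ofReal_le_ofReal_iff (by positivity)).1 e2
  rw [e1, norm_smul, norm_inv, Complex.norm_real, Real.norm_eq_abs, abs_of_pos hpi]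
  calc Real.pi⁻¹ * ‖∫ w in ball (0 : ℂ) 1, ((z - w)⁻¹ - (0 - w)⁻¹) • F w‖
      ≤ Real.pi⁻¹ * (8 * ‖z‖ ^ (θ + h) * A * (K * kc (1 + h) ε + K * kc (1 + h) ε)) := by gcongr
    _ = _ := by field_simp; ring

/-- a bounded function, weakly differentiable off `0` -/
theorem wdecomp [CompleteSpace E] {v F : ℂ → E} {K ε A B : ℝ} {G : ℂ → ℝ≥0∞} (hG : Mor K ε G)
    (hε : 0 < ε) (hA : 0 ≤ A) (hF : Dom G A 0 F) (hv : ContinuousOn v pd)
    (hb : ∀ z ∈ pd, ‖v z‖ ≤ B) (hw : WDb pd v F) :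
    ∃ H : ℂ → E, DifferentiableOn ℂ H (ball 0 1) ∧ ∀ z ∈ pd, v z = H z + cauT F z := by
  have hcont : Continuous (cauT F) := hF.continuous_cauT hA hG hε
  have hint : IntegrableOn F (ball 0 1) := hF.integrableOn hA hG (by linarith)
  have h1 : WDb pd (cauT F) F := (wdb_cauT hint).mono pd_subset
  have h3 : WDb pd (fun z => v z - cauT F z) (fun _ => 0) := by
    refine (WDb.sub_int isOpen_pd hv hcont.continuousOn (hint.mono_set pd_subset)
      (hint.mono_set pd_subset) hw h1).congr (fun _ _ => rfl) fun z _ => ?_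
    simp
  have h4 : DifferentiableOn ℂ (fun z => v z - cauT F z) pd :=
    h3.holo isOpen_pd (hv.sub hcont.continuousOn)
  set g : ℂ → E := fun z => v z - cauT F z with hg
  have hbd0 : ∀ z ∈ pd, ‖g z‖ ≤ B + A * (K * kc 1 ε) / Real.pi := fun z hz =>
    (norm_sub_le _ _).trans (add_le_add (hb z hz) (hF.norm_cauT_le hA hG hε z))
  have h5 : g =o[𝓝[≠] 0] fun z => (z - 0)⁻¹ := by
    have hbd : ∀ᶠ z in 𝓝[≠] (0:ℂ), ‖g z‖ ≤ (B + A * (K * kc 1 ε) / Real.pi) * ‖(1:ℂ)‖ := by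
      filter_upwards [pd_mem_nhds] with z hz
      rw [norm_one, mul_one]
      exact hbd0 z hz
    have h6 : g =O[𝓝[≠] 0] fun _ : ℂ => (1:ℂ) := IsBigO.of_bound _ hbd
    refine h6.trans_isLittleO ?_
    rw [isLittleO_iff]
    intro c hc
    have : ball (0:ℂ) c \ {0} ∈ 𝓝[≠] (0:ℂ) :=
      sdiff_mem_nhdsWithin_compl (ball_mem_nhds _ hc) _
    filter_upwards [this] with z hz
    have hz0 : z ≠ 0 := hz.2
    have hzc : ‖z‖ < c := mem_ball_zero_iff.1 hz.1
    rw [sub_zero, norm_inv, norm_one]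
    have : 0 < ‖z‖ := norm_pos_iff.2 hz0
    rw [← div_eq_mul_inv, one_le_div this]
    exact hzc.le
  have h7 := Complex.differentiableOn_update_limUnder_of_isLittleO
    (s := ball (0:ℂ) 1) (c := 0) (f := g) (ball_mem_nhds _ one_pos) h4 (by
      have : (fun z => g z - g 0) =o[𝓝[≠] 0] fun z => (z - 0)⁻¹ := by
        refine h5.sub ?_
        rw [isLittleO_iff]
        intro c hc
        have hc' : 0 < c / (‖g 0‖ + 1) := by positivity
        have : ball (0:ℂ) (c / (‖g 0‖ + 1)) \ {0} ∈ 𝓝[≠] (0:ℂ) :=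
          sdiff_mem_nhdsWithin_compl (ball_mem_nhds _ hc') _
        filter_upwards [this] with z hz
        have hz0 : z ≠ 0 := hz.2
        have hzc : ‖z‖ < c / (‖g 0‖ + 1) := mem_ball_zero_iff.1 hz.1
        rw [sub_zero, norm_inv]
        have : 0 < ‖z‖ := norm_pos_iff.2 hz0
        rw [← div_eq_mul_inv, le_div_iff₀ this]
        rw [lt_div_iff₀ (by positivity)] at hzc
        nlinarith [norm_nonneg (g 0)]
      exact this)
  refine ⟨_, h7, fun z hz => ?_⟩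
  rw [Function.update_of_ne hz.2]
  simp [hg]

/-- a holomorphic function on the unit disc is Lipschitz at the centre -/
theorem holo_lip [CompleteSpace E] {H : ℂ → E} (hH : DifferentiableOn ℂ H (ball 0 1)) :
    ∃ K1 : ℝ, 0 ≤ K1 ∧ ∀ z ∈ ball (0:ℂ) (1/2), ‖H z - H 0‖ ≤ K1 * ‖z‖ := by
  have hc : ContinuousOn (fun z => ‖deriv H z‖) (closedBall (0:ℂ) (1/2)) := by
    have h1 : DifferentiableOn ℂ (deriv H) (ball 0 1) := hH.deriv isOpen_ball
    exact (h1.continuousOn.mono (closedBall_subset_ball (by norm_num))).norm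
  obtain ⟨K, hK⟩ := (isCompact_closedBall (0:ℂ) (1/2)).bddAbove_image hc
  refine ⟨max K 0, le_max_right _ _, fun z hz => ?_⟩
  have h2 := (convex_closedBall (0:ℂ) (1/2)).norm_image_sub_le_of_norm_deriv_le (f := H)
    (C := max K 0) (x := 0) (y := z) (fun x hx => hH.differentiableAt
      (isOpen_ball.mem_nhds (closedBall_subset_ball (by norm_num) hx)))
    (fun x hx => (hK (mem_image_of_mem _ hx)).trans (le_max_left _ _))
    (mem_closedBall_self (by norm_num)) (ball_subset_closedBall hz)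
  simpa using h2

/-- hypotheses on the punctured unit disc -/
structure WCarl (K ε A : ℝ) (G : ℂ → ℝ≥0∞) (u q : ℂ → E) : Prop where
  mor : Mor K ε G
  εp : 0 < ε
  A0 : 0 ≤ A
  cont : ContinuousOn u pd
  bdd : ∀ z ∈ pd, ‖u z‖ ≤ A
  qm : AEStronglyMeasurable q (volume.restrict (ball (0:ℂ) 1))
  ineq : ∀ᵐ w ∂(volume.restrict (ball (0:ℂ) 1)), ‖q w‖ₑ ≤ G w * ‖u w‖ₑ
  wd : WDb pd u q

namespace WCarl

variable {K ε A : ℝ} {G : ℂ → ℝ≥0∞} {u q : ℂ → E}

theorem ae_pd : ∀ᵐ w ∂(volume.restrict (ball (0:ℂ) 1)), w ∈ pd := by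
  have hne : ∀ᵐ w : ℂ ∂(volume.restrict (ball (0 : ℂ) 1)), w ≠ 0 := by
    refine ae_restrict_of_ae ?_
    rw [ae_iff]; simp
  filter_upwards [hne, ae_restrict_mem measurableSet_ball] with w h1 h2
  exact ⟨h2, h1⟩

theorem norm_v (m : ℕ) {z : ℂ} (hz : z ∈ pd) : ‖(z ^ m)⁻¹ • u z‖ = ‖u z‖ / ‖z‖ ^ m := by
  rw [norm_smul, norm_inv, norm_pow, div_eq_inv_mul]

theorem cont_v (h : WCarl K ε A G u q) (m : ℕ) : ContinuousOn (fun z => (z ^ m)⁻¹ • u z) pd := by
  refine ContinuousOn.smul ?_ h.cont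
  exact ((continuous_id.pow m).continuousOn).inv₀ fun z hz => pow_ne_zero m hz.2

theorem wd_v (h : WCarl K ε A G u q) (m : ℕ) :
    WDb pd (fun z => (z ^ m)⁻¹ • u z) fun z => (z ^ m)⁻¹ • q z := by
  refine WDb.holo_smul isOpen_pd h.wd ?_
  exact ((differentiable_id.pow m).differentiableOn).inv fun z hz => pow_ne_zero m hz.2

theorem dom_v (h : WCarl K ε A G u q) (m : ℕ) {B θ : ℝ}
    (hm : ∀ z ∈ pd, ‖(z ^ m)⁻¹ • u z‖ ≤ B * ‖z‖ ^ θ) :
    Dom G B θ (fun z => (z ^ m)⁻¹ • q z) := by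
  refine ⟨?_, ?_⟩
  · exact (by fun_prop : Measurable fun z : ℂ => (z^m)⁻¹).aestronglyMeasurable.smul h.qm
  · filter_upwards [h.ineq, ae_pd] with w hw hwp
    rw [enorm_smul]
    calc ‖(w ^ m)⁻¹‖ₑ * ‖q w‖ₑ ≤ ‖(w ^ m)⁻¹‖ₑ * (G w * ‖u w‖ₑ) := by gcongr
      _ = G w * ‖(w ^ m)⁻¹ • u w‖ₑ := by rw [enorm_smul]; ring
      _ ≤ G w * ENNReal.ofReal (B * ‖w‖ ^ θ) := by
          gcongr
          rw [← ofReal_norm]
          exact ENNReal.ofReal_le_ofReal (hm w hwp)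

/-- the step -/
theorem step [CompleteSpace E] (h : WCarl K ε A G u q) {N : ℕ} (hN : 1 ≤ N) (hNε : 1 / (N:ℝ) < ε)
    (m : ℕ) {B : ℝ} (hB : 0 ≤ B) (hm : ∀ z ∈ pd, ‖u z‖ ≤ B * ‖z‖ ^ m) :
    ∃ a : E, ∃ K' : ℝ, 0 ≤ K' ∧
      (∀ z ∈ pd, ‖(z ^ m)⁻¹ • u z - a‖ ≤ K' * ‖z‖ ^ (1 / (N:ℝ))) ∧
      (a = 0 → ∀ z ∈ pd, ‖u z‖ ≤ K' * ‖z‖ ^ (m + 1)) := by
  have hNp : (0:ℝ) < N := by exact_mod_cast hN
  have hN1 : 1 / (N:ℝ) ≤ 1 := by
    rw [div_le_one hNp]; exact_mod_cast hN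
  have hNp' : 0 < 1 / (N:ℝ) := by positivity
  set v : ℂ → E := fun z => (z ^ m)⁻¹ • u z with hvdef
  set F : ℂ → E := fun z => (z ^ m)⁻¹ • q z with hFdef
  have hnv : ∀ z ∈ pd, ‖v z‖ = ‖u z‖ / ‖z‖ ^ m := fun z hz => norm_v m hz
  have hb : ∀ z ∈ pd, ‖v z‖ ≤ B := fun z hz => by
    rw [hnv z hz, div_le_iff₀ (pow_pos (norm_pos' hz) m)]
    exact hm z hz
  have hF0 : Dom G B 0 F := h.dom_v m fun z hz => by
    simpa using hb z hz
  obtain ⟨H, hH, hvH'⟩ := wdecomp h.mor h.εp hB hF0 (h.cont_v m) hb (h.wd_v m)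
  have hvH : ∀ z ∈ pd, v z = H z + cauT F z := hvH'
  obtain ⟨K1, hK1, hHl⟩ := holo_lip hH
  set a : E := H 0 + cauT F 0 with ha
  have hfar : ∀ z ∈ pd, z ∉ ball (0:ℂ) (1/2) → (1/2 : ℝ) ≤ ‖z‖ := fun z _ hz2 => by
    simpa using hz2
  have hpow : ∀ z ∈ pd, ∀ s : ℝ, 0 ≤ s → s ≤ 1 → ‖z‖ ≤ ‖z‖ ^ s := fun z hz s _ hs1 => by
    have h1 := Real.rpow_le_rpow_of_exponent_ge (norm_pos' hz) (norm_lt_one hz).le hs1
    rwa [Real.rpow_one] at h1
  -- general comparison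
  have comb : ∀ (θ A' : ℝ), 0 ≤ θ → θ + 1 / (N:ℝ) ≤ 1 → 0 ≤ A' →
      (∀ z ∈ pd, ‖v z‖ ≤ A' * ‖z‖ ^ θ) →
      ∃ K' : ℝ, 0 ≤ K' ∧ ∀ z ∈ pd, ‖v z - a‖ ≤ K' * ‖z‖ ^ (θ + 1 / (N:ℝ)) := by
    intro θ A' hθ hθ1 hA' hv'
    have hFθ : Dom G A' θ F := h.dom_v m hv'
    have hK0 := h.mor.K0
    have hkc := kc_pos (β := 1 + 1 / (N:ℝ)) (ε := ε) (by linarith)
    have hpi := Real.pi_pos
    set K2 : ℝ := 16 * (A' * (K * kc (1 + 1 / (N:ℝ)) ε)) / Real.pi with hK2
    have hK2' : 0 ≤ K2 := by rw [hK2]; positivity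
    refine ⟨K1 + K2 + 2 * (B + ‖a‖), by positivity, fun z hz => ?_⟩
    have hp : 0 ≤ ‖z‖ ^ (θ + 1 / (N:ℝ)) := Real.rpow_nonneg (norm_nonneg _) _
    have hzz := hpow z hz (θ + 1 / (N:ℝ)) (by positivity) hθ1
    by_cases hz2 : z ∈ ball (0:ℂ) (1/2)
    · rw [hvH z hz, ha]
      have e : H z + cauT F z - (H 0 + cauT F 0) = (H z - H 0) + (cauT F z - cauT F 0) := by abel
      rw [e]
      refine (norm_add_le _ _).trans ?_
      have h1 := hHl z hz2
      have h2 := hFθ.cauT_gain hF0 hB hA' h.mor hθ hNp' hθ1 hNε hz.2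
      rw [← hK2] at h2
      have h3 : K1 * ‖z‖ ≤ K1 * ‖z‖ ^ (θ + 1 / (N:ℝ)) := by gcongr
      have h4 : 0 ≤ 2 * (B + ‖a‖) * ‖z‖ ^ (θ + 1 / (N:ℝ)) := by positivity
      nlinarith
    · have h1 := hfar z hz hz2
      have h2 : ‖v z - a‖ ≤ B + ‖a‖ := (norm_sub_le _ _).trans (add_le_add (hb z hz) le_rfl)
      have h3 : (1/2 : ℝ) ≤ ‖z‖ ^ (θ + 1 / (N:ℝ)) := h1.trans hzz
      have h4 : B + ‖a‖ ≤ 2 * (B + ‖a‖) * ‖z‖ ^ (θ + 1 / (N:ℝ)) := by
        have : 0 ≤ B + ‖a‖ := by positivity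
        nlinarith
      have h5 : 0 ≤ (K1 + K2) * ‖z‖ ^ (θ + 1 / (N:ℝ)) := by positivity
      nlinarith
  obtain ⟨Ka, hKa, hKa'⟩ := comb 0 B le_rfl (by simpa using hN1) hB (fun z hz => by
    simpa using hb z hz)
  simp only [zero_add] at hKa'
  -- iteration
  by_cases ha0 : a = 0
  · have iter : ∀ j : ℕ, j ≤ N → ∃ A' : ℝ, 0 ≤ A' ∧ ∀ z ∈ pd, ‖v z‖ ≤ A' * ‖z‖ ^ ((j:ℝ) / N) := by
      intro j
      induction j with
      | zero =>
        intro _
        exact ⟨B, hB, fun z hz => by simpa using hb z hz⟩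
      | succ j ih =>
        intro hj
        obtain ⟨A', hA', h1⟩ := ih (by omega)
        have hjN : (j:ℝ) / N + 1 / (N:ℝ) ≤ 1 := by
          rw [← add_div, div_le_one hNp]
          exact_mod_cast hj
        obtain ⟨K', hK', h2⟩ := comb ((j:ℝ) / N) A' (by positivity) hjN hA' h1
        refine ⟨K', hK', fun z hz => ?_⟩
        have := h2 z hz
        rw [ha0, sub_zero] at this
        have e : (((j+1 : ℕ) : ℝ) / N) = (j:ℝ) / N + 1 / (N:ℝ) := by
          push_cast; ring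
        rw [e]; exact this
    obtain ⟨A', hA', h1⟩ := iter N le_rfl
    refine ⟨a, Ka + A', by positivity, fun z hz => ?_, fun _ z hz => ?_⟩
    · refine (hKa' z hz).trans ?_
      have : 0 ≤ ‖z‖ ^ (1 / (N:ℝ)) := by positivity
      nlinarith
    · have h2 := h1 z hz
      rw [div_self hNp.ne', Real.rpow_one, hnv z hz, div_le_iff₀ (pow_pos (norm_pos' hz) m)] at h2
      refine h2.trans ?_
      rw [mul_assoc, ← pow_succ']
      gcongr
      linarith
  · exact ⟨a, Ka, hKa, hKa', fun h0 => absurd h0 ha0⟩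

/-- vanishing of infinite order -/
theorem infinite [CompleteSpace E] (h : WCarl K ε A G u q) (hC : K * kc 1 ε / Real.pi ≤ 1/4)
    (hm : ∀ m : ℕ, ∃ B : ℝ, ∀ z ∈ pd, ‖u z‖ ≤ B * ‖z‖ ^ m) : ∀ z ∈ pd, u z = 0 := by
  have key : ∀ m : ℕ, ∀ z ∈ pd, ‖u z‖ ≤ 2 * A * ‖z‖ ^ m := by
    intro m
    obtain ⟨B0, hB0⟩ := hm m
    set v : ℂ → E := fun z => (z ^ m)⁻¹ • u z with hvdef
    set F : ℂ → E := fun z => (z ^ m)⁻¹ • q z with hFdef
    have hnv : ∀ z ∈ pd, ‖v z‖ = ‖u z‖ / ‖z‖ ^ m := fun z hz => norm_v m hz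
    have hbd : BddAbove ((fun z => ‖v z‖) '' pd) := by
      refine ⟨B0, ?_⟩
      rintro _ ⟨z, hz, rfl⟩
      simp only
      rw [hnv z hz, div_le_iff₀ (pow_pos (norm_pos' hz) m)]
      exact hB0 z hz
    set S : ℝ := sSup ((fun z => ‖v z‖) '' pd) with hS
    have hpd : (1/2 : ℂ) ∈ pd := by
      refine ⟨?_, by simp⟩
      rw [mem_ball_zero_iff]; norm_num
    have hvS : ∀ z ∈ pd, ‖v z‖ ≤ S := fun z hz => le_csSup hbd (mem_image_of_mem _ hz)
    have hS0 : 0 ≤ S := (norm_nonneg _).trans (hvS _ hpd)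
    have hF0 : Dom G S 0 F := h.dom_v m fun z hz => by
      simpa using hvS z hz
    obtain ⟨H, hH, hvH'⟩ := wdecomp h.mor h.εp hS0 hF0 (h.cont_v m) hvS (h.wd_v m)
    have hvH : ∀ z ∈ pd, v z = H z + cauT F z := hvH'
    have hcT : ∀ z, ‖cauT F z‖ ≤ S / 4 := fun z => by
      have h1 := hF0.norm_cauT_le hS0 h.mor h.εp z
      have h2 : S * (K * kc 1 ε) / Real.pi = (K * kc 1 ε / Real.pi) * S := by ring
      rw [h2] at h1
      nlinarith
    have hHr : ∀ r : ℝ, 0 < r → r < 1 → ∀ z ∈ closedBall (0:ℂ) r, ‖H z‖ ≤ A / r ^ m + S / 4 := by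
      intro r hr hr1 z hz
      have hcl : closure (ball (0:ℂ) r) = closedBall 0 r := closure_ball _ hr.ne'
      have hdc : DiffContOnCl ℂ H (ball 0 r) := by
        refine (hH.mono ?_).diffContOnCl
        rw [hcl]
        exact closedBall_subset_ball hr1
      refine Complex.norm_le_of_forall_mem_frontier_norm_le isBounded_ball hdc ?_ (hcl ▸ hz)
      intro w hw
      rw [frontier_ball _ hr.ne', mem_sphere_zero_iff_norm] at hw
      have hwp : w ∈ pd := by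
        refine ⟨by rw [mem_ball_zero_iff, hw]; exact hr1, ?_⟩
        intro h0
        rw [mem_singleton_iff] at h0
        rw [h0, norm_zero] at hw
        exact hr.ne hw
      have e : H w = v w - cauT F w := by rw [hvH w hwp]; simp
      rw [e]
      refine (norm_sub_le _ _).trans (add_le_add ?_ (hcT w))
      rw [hnv w hwp, hw]
      gcongr
      exact h.bdd w hwp
    have hH1 : ∀ z ∈ pd, ‖H z‖ ≤ A + S / 4 := by
      intro z hz
      have ht : Tendsto (fun r : ℝ => A / r ^ m + S / 4) (𝓝[<] 1) (𝓝 (A / 1 ^ m + S / 4)) := by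
        have hc : ContinuousAt (fun r : ℝ => A / r ^ m + S / 4) 1 := by
          refine ContinuousAt.add (ContinuousAt.div continuousAt_const
            (continuousAt_id.pow m) (by simp)) continuousAt_const
        exact hc.tendsto.mono_left nhdsWithin_le_nhds
      rw [one_pow, div_one] at ht
      refine ge_of_tendsto ht ?_
      have h1 : Ioo ‖z‖ 1 ∈ 𝓝[<] (1:ℝ) := Ioo_mem_nhdsLT (norm_lt_one hz)
      filter_upwards [h1] with r hr
      exact hHr r ((norm_nonneg z).trans_lt hr.1) hr.2 z (by simpa using hr.1.le)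
    have hvb : ∀ z ∈ pd, ‖v z‖ ≤ A + S / 2 := by
      intro z hz
      rw [hvH z hz]
      refine (norm_add_le _ _).trans ?_
      have := hH1 z hz
      have := hcT z
      linarith
    have hSle : S ≤ A + S / 2 := by
      refine csSup_le ⟨_, mem_image_of_mem _ hpd⟩ ?_
      rintro _ ⟨z, hz, rfl⟩
      exact hvb z hz
    intro z hz
    have h1 := (hvS z hz).trans (show S ≤ 2 * A by linarith)
    rwa [hnv z hz, div_le_iff₀ (pow_pos (norm_pos' hz) m)] at h1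
  intro z hz
  have ht : Tendsto (fun m : ℕ => 2 * A * ‖z‖ ^ m) atTop (𝓝 (2 * A * 0)) :=
    (tendsto_pow_atTop_nhds_zero_of_lt_one (norm_nonneg _) (norm_lt_one hz)).const_mul _
  rw [mul_zero] at ht
  have h1 : ‖u z‖ ≤ 0 := ge_of_tendsto ht (Eventually.of_forall fun m => key m z hz)
  exact norm_le_zero_iff.1 h1

/-- **local form**, on the unit disc -/
theorem main [CompleteSpace E] (h : WCarl K ε A G u q) (hC : K * kc 1 ε / Real.pi ≤ 1/4) :
    (∀ z ∈ pd, u z = 0) ∨ ∃ m : ℕ, ∃ a : E, a ≠ 0 ∧ ∃ K' s : ℝ, 0 ≤ K' ∧ 0 < s ∧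
      ∀ z ∈ pd, ‖(z ^ m)⁻¹ • u z - a‖ ≤ K' * ‖z‖ ^ s := by
  obtain ⟨N, hN1, hNε⟩ : ∃ N : ℕ, 1 ≤ N ∧ 1 / (N:ℝ) < ε := by
    obtain ⟨n, hn⟩ := exists_nat_one_div_lt h.εp
    exact ⟨n + 1, by omega, by push_cast; exact hn⟩
  by_cases hcase : ∀ m : ℕ, ∃ B : ℝ, 0 ≤ B ∧ ∀ z ∈ pd, ‖u z‖ ≤ B * ‖z‖ ^ m
  · left
    refine h.infinite hC fun m => ?_
    obtain ⟨B, -, hB⟩ := hcase m
    exact ⟨B, hB⟩
  · right
    push Not at hcase
    classical
    have hex : ∃ m : ℕ, ∀ B : ℝ, 0 ≤ B → ∃ z ∈ pd, B * ‖z‖ ^ m < ‖u z‖ := hcase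
    set n := Nat.find hex with hn
    have hn' := Nat.find_spec hex
    have hn0 : n ≠ 0 := by
      intro h0
      rw [← hn, h0] at hn'
      obtain ⟨z, hz, hlt⟩ := hn' A h.A0
      rw [pow_zero, mul_one] at hlt
      exact absurd (h.bdd z hz) (not_le.2 hlt)
    obtain ⟨m, hm⟩ := Nat.exists_eq_succ_of_ne_zero hn0
    have hmin := Nat.find_min hex (m := m) (by rw [← hn, hm]; exact Nat.lt_succ_self m)
    push Not at hmin
    obtain ⟨B, hB, hBm⟩ := hmin
    obtain ⟨a, K', hK', h1, h2⟩ := h.step hN1 hNε m hB hBm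
    refine ⟨m, a, ?_, K', 1 / (N:ℝ), hK', by positivity, h1⟩
    intro ha
    obtain ⟨z, hz, hlt⟩ := hn' K' hK'
    have := h2 ha z hz
    rw [← hn, hm] at hlt
    exact absurd this (not_le.2 hlt)

end WCarl

end Vale.Agent.P247.H324
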