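import Vale.Agent.P247.H324.SP

/-! Potential estimates for densities with a Morrey bound on the unit disc. -/

open MeasureTheory Set Metric Filter Topology Asymptotics
open scoped ContDiff ENNReal

set_option linter.unusedSectionVars false

noncomputable section

namespace Vale.Agent.P247.H324

open Vale.Agent.P272.CT

variable {E : Type*} [NormedAddCommGroup E] [NormedSpace ℂ E]

/-- Morrey bound for a density on the unit disc -/
structure Mor (K ε : ℝ) (G : ℂ → ℝ≥0∞) : Prop where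
  meas : AEMeasurable G (volume.restrict (ball (0:ℂ) 1))
  K0 : 0 ≤ K
  le : ∀ x : ℂ, ∀ ρ : ℝ, 0 < ρ →
    ∫⁻ w in ball x ρ ∩ ball 0 1, G w ≤ ENNReal.ofReal (K * ρ ^ (1 + ε))

/-- the constant in the kernel bound -/
def kc (β ε : ℝ) : ℝ := 1 + 2 ^ (β + 1 + ε) * (1 - 2 ^ (β - 1 - ε))⁻¹

theorem kc_pos {β ε : ℝ} (h : β < 1 + ε) : 0 < kc β ε := by
  have h1 : (2:ℝ) ^ (β - 1 - ε) < 1 := Real.rpow_lt_one_of_one_lt_of_neg (by norm_num) (by linarith)
  have h2 : 0 < (1 - (2:ℝ) ^ (β - 1 - ε))⁻¹ := inv_pos.2 (by linarith)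
  unfold kc
  positivity

/-- pointwise dyadic bound of the kernel -/
theorem kernel_dyadic {β : ℝ} (hβ : 0 ≤ β) {x w : ℂ} (hxw : w ≠ x) :
    ENNReal.ofReal (‖x - w‖ ^ (-β)) ≤ 1 + ∑' k : ℕ,
      ENNReal.ofReal (2 ^ (β * (k + 1))) * (ball x (2 * (1/2) ^ k)).indicator 1 w := by
  have hp : 0 < ‖x - w‖ := norm_pos_iff.2 (sub_ne_zero.2 (Ne.symm hxw))
  by_cases h1 : 1 ≤ ‖x - w‖
  · have h2 : ‖x - w‖ ^ (-β) ≤ 1 := Real.rpow_le_one_of_one_le_of_nonpos h1 (by linarith)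
    calc ENNReal.ofReal (‖x - w‖ ^ (-β)) ≤ ENNReal.ofReal 1 := ENNReal.ofReal_le_ofReal h2
      _ = 1 := ENNReal.ofReal_one
      _ ≤ _ := le_self_add
  · push Not at h1
    obtain ⟨n, hn1, hn2⟩ := exists_nat_pow_near_of_lt_one hp h1.le (show (0:ℝ) < 1/2 by norm_num)
      (by norm_num)
    have h3 : ‖x - w‖ ^ (-β) ≤ 2 ^ (β * (n + 1)) := by
      have h4 : ((1/2 : ℝ) ^ (n+1)) ^ (-β) = 2 ^ (β * (n + 1)) := by
        rw [← Real.rpow_natCast, one_div, Real.inv_rpow (by norm_num), ← Real.rpow_neg (by norm_num),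
          ← Real.rpow_mul (by norm_num)]
        congr 1
        push_cast
        ring
      rw [← h4]
      exact Real.rpow_le_rpow_of_nonpos (by positivity) hn1.le (by linarith)
    have h5 : w ∈ ball x (2 * (1/2) ^ n) := by
      rw [mem_ball, dist_comm, dist_eq_norm]
      have : (0:ℝ) < (1/2)^n := by positivity
      linarith
    refine le_trans ?_ le_add_self
    refine le_trans ?_ (ENNReal.le_tsum n)
    rw [indicator_of_mem h5, Pi.one_apply, mul_one]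
    exact ENNReal.ofReal_le_ofReal h3

namespace Mor

variable {K ε : ℝ} {G : ℂ → ℝ≥0∞}

theorem total (h : Mor K ε G) : ∫⁻ w in ball (0:ℂ) 1, G w ≤ ENNReal.ofReal K := by
  have := h.le 0 1 one_pos
  rwa [inter_self, Real.one_rpow, mul_one] at this

/-- THE KERNEL BOUND -/
theorem lint_kernel (h : Mor K ε G) {β : ℝ} (hβ0 : 0 ≤ β) (hβ : β < 1 + ε) (x : ℂ) :
    ∫⁻ w in ball (0:ℂ) 1, G w * ENNReal.ofReal (‖x - w‖ ^ (-β)) ≤
      ENNReal.ofReal (K * kc β ε) := by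
  have hne : ∀ᵐ w : ℂ ∂(volume.restrict (ball (0 : ℂ) 1)), w ≠ x := by
    refine ae_restrict_of_ae ?_
    rw [ae_iff]; simp
  have hq1 : (2:ℝ) ^ (β - 1 - ε) < 1 :=
    Real.rpow_lt_one_of_one_lt_of_neg (by norm_num) (by linarith)
  have hq0 : (0:ℝ) < 2 ^ (β - 1 - ε) := by positivity
  calc ∫⁻ w in ball (0:ℂ) 1, G w * ENNReal.ofReal (‖x - w‖ ^ (-β))
      ≤ ∫⁻ w in ball (0:ℂ) 1, G w * (1 + ∑' k : ℕ,
        ENNReal.ofReal (2 ^ (β * (k + 1))) * (ball x (2 * (1/2) ^ k)).indicator 1 w) := by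
        refine lintegral_mono_ae ?_
        filter_upwards [hne] with w hw
        gcongr
        exact kernel_dyadic hβ0 hw
    _ = ∫⁻ w in ball (0:ℂ) 1, (G w + ∑' k : ℕ,
        ENNReal.ofReal (2 ^ (β * (k + 1))) * (G w * (ball x (2 * (1/2) ^ k)).indicator 1 w)) := by
        refine lintegral_congr fun w => ?_
        rw [mul_add, mul_one, ← ENNReal.tsum_mul_left]
        congr 1
        refine tsum_congr fun k => ?_
        ring
    _ = (∫⁻ w in ball (0:ℂ) 1, G w) + ∑' k : ℕ, ∫⁻ w in ball (0:ℂ) 1,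
        ENNReal.ofReal (2 ^ (β * (k + 1))) * (G w * (ball x (2 * (1/2) ^ k)).indicator 1 w) := by
        have hind : ∀ k : ℕ, AEMeasurable (fun w => ENNReal.ofReal (2 ^ (β * (k + 1))) *
            (G w * (ball x (2 * (1/2) ^ k)).indicator 1 w)) (volume.restrict (ball (0:ℂ) 1)) := by
          intro k
          refine AEMeasurable.const_mul ?_ _
          exact h.meas.mul ((measurable_one.indicator measurableSet_ball).aemeasurable)
        rw [lintegral_add_left' h.meas, lintegral_tsum hind]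
    _ ≤ ENNReal.ofReal K + ∑' k : ℕ, ENNReal.ofReal (K * 2 ^ (β + 1 + ε)) *
          (ENNReal.ofReal (2 ^ (β - 1 - ε))) ^ k := by
        refine add_le_add h.total (ENNReal.tsum_le_tsum fun k => ?_)
        · have hmi : AEMeasurable (fun w => G w * (ball x (2 * (1/2) ^ k)).indicator 1 w)
              (volume.restrict (ball (0:ℂ) 1)) :=
            h.meas.mul ((measurable_one.indicator measurableSet_ball).aemeasurable)
          rw [lintegral_const_mul'' _ hmi]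
          have e1 : ∫⁻ w in ball (0:ℂ) 1, G w * (ball x (2 * (1/2) ^ k)).indicator 1 w =
              ∫⁻ w in ball x (2 * (1/2) ^ k) ∩ ball 0 1, G w := by
            have : ∀ w, G w * (ball x (2 * (1/2) ^ k)).indicator 1 w =
                (ball x (2 * (1/2) ^ k)).indicator G w := by
              intro w
              by_cases hw : w ∈ ball x (2 * (1/2) ^ k)
              · rw [indicator_of_mem hw, indicator_of_mem hw, Pi.one_apply, mul_one]
              · rw [indicator_of_notMem hw, indicator_of_notMem hw, mul_zero]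
            simp_rw [this]
            rw [lintegral_indicator measurableSet_ball, Measure.restrict_restrict measurableSet_ball]
          rw [e1]
          calc ENNReal.ofReal (2 ^ (β * (k + 1))) * ∫⁻ w in ball x (2 * (1/2) ^ k) ∩ ball 0 1, G w
              ≤ ENNReal.ofReal (2 ^ (β * (k + 1))) *
                ENNReal.ofReal (K * (2 * (1/2) ^ k) ^ (1 + ε)) := by
                gcongr
                exact h.le x _ (by positivity)
            _ = ENNReal.ofReal (K * 2 ^ (β + 1 + ε)) * (ENNReal.ofReal (2 ^ (β - 1 - ε))) ^ k := by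
                rw [← ENNReal.ofReal_mul (by positivity), ← ENNReal.ofReal_pow (by positivity),
                  ← ENNReal.ofReal_mul (mul_nonneg h.K0 (by positivity))]
                congr 1
                have e2 : ((2:ℝ) * (1/2) ^ k) = 2 ^ (1 - (k:ℝ)) := by
                  rw [Real.rpow_sub (by norm_num), Real.rpow_one, Real.rpow_natCast, one_div,
                    inv_pow, div_eq_mul_inv]
                rw [e2, ← Real.rpow_mul (by norm_num), ← Real.rpow_natCast, ← Real.rpow_mul (by norm_num)]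
                have e3 : (2:ℝ) ^ (β * (k + 1)) * (K * 2 ^ ((1 - (k:ℝ)) * (1 + ε))) =
                    K * 2 ^ (β * (k + 1) + (1 - (k:ℝ)) * (1 + ε)) := by
                  rw [Real.rpow_add (by norm_num) (β * (k + 1))]; ring
                have e4 : K * 2 ^ (β + 1 + ε) * 2 ^ ((β - 1 - ε) * (k:ℝ)) =
                    K * 2 ^ ((β + 1 + ε) + (β - 1 - ε) * (k:ℝ)) := by
                  rw [Real.rpow_add (by norm_num) (β + 1 + ε)]; ring
                rw [e3, e4]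
                congr 2
                ring
    _ = ENNReal.ofReal (K * kc β ε) := by
        rw [ENNReal.tsum_mul_left, ENNReal.tsum_geometric]
        have e5 : (1 - ENNReal.ofReal (2 ^ (β - 1 - ε)))⁻¹ =
            ENNReal.ofReal ((1 - 2 ^ (β - 1 - ε))⁻¹) := by
          rw [ENNReal.ofReal_inv_of_pos (by linarith), ENNReal.ofReal_sub _ hq0.le, ENNReal.ofReal_one]
        have hinv : (0:ℝ) ≤ (1 - 2 ^ (β - 1 - ε))⁻¹ := (inv_pos.2 (by linarith)).le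
        rw [e5, ← ENNReal.ofReal_mul (mul_nonneg h.K0 (by positivity)), ← ENNReal.ofReal_add h.K0
          (mul_nonneg (mul_nonneg h.K0 (by positivity)) hinv)]
        congr 1
        unfold kc
        ring

theorem mono {K' : ℝ} (h : Mor K ε G) (hK : K ≤ K') (hε : 0 ≤ 1 + ε) : Mor K' ε G :=
  ⟨h.meas, h.K0.trans hK, fun x ρ hρ => (h.le x ρ hρ).trans (ENNReal.ofReal_le_ofReal (by gcongr))⟩

end Mor

/-- `F` is dominated by `G` times `A |w|^θ` -/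
structure Dom (G : ℂ → ℝ≥0∞) (A θ : ℝ) (F : ℂ → E) : Prop where
  meas : AEStronglyMeasurable F (volume.restrict (ball (0:ℂ) 1))
  le : ∀ᵐ w ∂(volume.restrict (ball (0:ℂ) 1)), ‖F w‖ₑ ≤ G w * ENNReal.ofReal (A * ‖w‖ ^ θ)

namespace Dom

variable {K ε A θ : ℝ} {G : ℂ → ℝ≥0∞} {F : ℂ → E}

theorem ae_le (hF : Dom G A 0 F) :
    ∀ᵐ w ∂(volume.restrict (ball (0:ℂ) 1)), ‖F w‖ₑ ≤ G w * ENNReal.ofReal A := by
  filter_upwards [hF.le] with w hw
  simpa using hw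

/-- integrability against a kernel bounded by powers -/
theorem lint_le (hF : Dom G A 0 F) (hA : 0 ≤ A) (hG : Mor K ε G) {β : ℝ} (hβ0 : 0 ≤ β)
    (hβ : β < 1 + ε) (x : ℂ) :
    ∫⁻ w in ball (0:ℂ) 1, ENNReal.ofReal (‖x - w‖ ^ (-β)) * ‖F w‖ₑ ≤
      ENNReal.ofReal (A * (K * kc β ε)) := by
  calc ∫⁻ w in ball (0:ℂ) 1, ENNReal.ofReal (‖x - w‖ ^ (-β)) * ‖F w‖ₑ
      ≤ ∫⁻ w in ball (0:ℂ) 1, ENNReal.ofReal A * (G w * ENNReal.ofReal (‖x - w‖ ^ (-β))) := by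
        refine lintegral_mono_ae ?_
        filter_upwards [hF.ae_le] with w hw
        calc ENNReal.ofReal (‖x - w‖ ^ (-β)) * ‖F w‖ₑ
            ≤ ENNReal.ofReal (‖x - w‖ ^ (-β)) * (G w * ENNReal.ofReal A) := by gcongr
          _ = _ := by ring
    _ = ENNReal.ofReal A * ∫⁻ w in ball (0:ℂ) 1, (G w * ENNReal.ofReal (‖x - w‖ ^ (-β))) := by
        rw [lintegral_const_mul'']
        refine hG.meas.mul ?_
        exact (by fun_prop : Measurable fun w : ℂ => ENNReal.ofReal (‖x - w‖ ^ (-β))).aemeasurable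
    _ ≤ ENNReal.ofReal A * ENNReal.ofReal (K * kc β ε) := by
        gcongr
        exact hG.lint_kernel hβ0 hβ x
    _ = _ := by rw [← ENNReal.ofReal_mul hA]

theorem integrableOn_ker (hF : Dom G A 0 F) (hA : 0 ≤ A) (hG : Mor K ε G) {β : ℝ} (hβ0 : 0 ≤ β)
    (hβ : β < 1 + ε) (x : ℂ) :
    IntegrableOn (fun w => ‖x - w‖ ^ (-β) * ‖F w‖) (ball (0:ℂ) 1) := by
  refine ⟨?_, ?_⟩
  · exact (by fun_prop : Measurable fun w : ℂ => ‖x - w‖ ^ (-β)).aestronglyMeasurable.mul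
      hF.meas.norm
  · rw [hasFiniteIntegral_iff_enorm]
    refine lt_of_le_of_lt ?_ (lt_of_le_of_lt (hF.lint_le hA hG hβ0 hβ x) ENNReal.ofReal_lt_top)
    refine lintegral_mono fun w => ?_
    rw [enorm_mul, enorm_norm, Real.enorm_eq_ofReal (by positivity)]

theorem integral_ker_le (hF : Dom G A 0 F) (hA : 0 ≤ A) (hG : Mor K ε G) {β : ℝ} (hβ0 : 0 ≤ β)
    (hβ : β < 1 + ε) (x : ℂ) :
    ∫ w in ball (0:ℂ) 1, ‖x - w‖ ^ (-β) * ‖F w‖ ≤ A * (K * kc β ε) := by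
  rw [integral_eq_lintegral_of_nonneg_ae (Eventually.of_forall fun w => by positivity)
    (hF.integrableOn_ker hA hG hβ0 hβ x).1]
  refine ENNReal.toReal_le_of_le_ofReal
    (mul_nonneg hA (mul_nonneg hG.K0 (kc_pos hβ).le)) ?_
  refine le_trans (le_of_eq ?_) (hF.lint_le hA hG hβ0 hβ x)
  refine lintegral_congr fun w => ?_
  rw [ENNReal.ofReal_mul (by positivity), ofReal_norm]

theorem integrableOn (hF : Dom G A 0 F) (hA : 0 ≤ A) (hG : Mor K ε G) (hε : 0 < 1 + ε) :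
    IntegrableOn F (ball (0:ℂ) 1) := by
  have := hF.integrableOn_ker hA hG le_rfl hε 0
  simp only [neg_zero, Real.rpow_zero, one_mul] at this
  exact (integrable_norm_iff hF.meas).1 this

theorem integrableOn_cau (hF : Dom G A 0 F) (hA : 0 ≤ A) (hG : Mor K ε G) (hε : 0 < ε) (x : ℂ) :
    IntegrableOn (fun w => (x - w)⁻¹ • F w) (ball (0:ℂ) 1) := by
  refine (hF.integrableOn_ker hA hG zero_le_one (by linarith) x).mono' ?_ ?_
  · exact (by fun_prop : Measurable fun w : ℂ => (x - w)⁻¹).aestronglyMeasurable.smul hF.meas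
  · refine Eventually.of_forall fun w => ?_
    rw [norm_smul, norm_inv, Real.rpow_neg_one]

theorem norm_cauT_le (hF : Dom G A 0 F) (hA : 0 ≤ A) (hG : Mor K ε G) (hε : 0 < ε) (x : ℂ) :
    ‖cauT F x‖ ≤ A * (K * kc 1 ε) / Real.pi := by
  rw [cauT, norm_smul, norm_inv, Complex.norm_real, Real.norm_eq_abs, abs_of_pos Real.pi_pos,
    inv_mul_eq_div]
  gcongr
  refine (norm_integral_le_of_norm_le (hF.integrableOn_ker hA hG zero_le_one (by linarith) x)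
    (Eventually.of_forall fun w => ?_)).trans
      (hF.integral_ker_le hA hG zero_le_one (by linarith) x)
  rw [norm_smul, norm_inv, Real.rpow_neg_one]

/-- Hölder continuity of the Cauchy transform -/
theorem cauT_holder (hF : Dom G A 0 F) (hA : 0 ≤ A) (hG : Mor K ε G) (hε : 0 < ε) {h : ℝ}
    (hh : 0 ≤ h) (hh1 : h ≤ 1) (hhε : h < ε) (x y : ℂ) :
    ‖cauT F x - cauT F y‖ ≤ 4 * (A * (K * kc (1 + h) ε)) / Real.pi * ‖x - y‖ ^ h := by
  have hpi := Real.pi_pos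
  have hI := hF.integrableOn_cau hA hG hε x
  have hI' := hF.integrableOn_cau hA hG hε y
  have e1 : cauT F x - cauT F y = ((Real.pi : ℝ) : ℂ)⁻¹ •
      ∫ w in ball (0 : ℂ) 1, ((x - w)⁻¹ - (y - w)⁻¹) • F w := by
    rw [cauT, cauT, ← smul_sub, ← integral_sub hI hI']
    congr 1
    refine integral_congr_ae (Eventually.of_forall fun w => ?_)
    simp only
    rw [sub_smul]
  have hne : ∀ x : ℂ, ∀ᵐ w : ℂ ∂(volume.restrict (ball (0 : ℂ) 1)), w ≠ x := by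
    intro x
    refine ae_restrict_of_ae ?_
    rw [ae_iff]; simp
  have hKx := hF.integrableOn_ker hA hG (β := 1 + h) (by linarith) (by linarith) x
  have hKy := hF.integrableOn_ker hA hG (β := 1 + h) (by linarith) (by linarith) y
  have e2 : ‖∫ w in ball (0 : ℂ) 1, ((x - w)⁻¹ - (y - w)⁻¹) • F w‖ ≤
      2 * ‖x - y‖ ^ h * (A * (K * kc (1 + h) ε) + A * (K * kc (1 + h) ε)) := by
    calc ‖∫ w in ball (0 : ℂ) 1, ((x - w)⁻¹ - (y - w)⁻¹) • F w‖
        ≤ ∫ w in ball (0 : ℂ) 1, 2 * ‖x - y‖ ^ h *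
            (‖x - w‖ ^ (-(1+h)) * ‖F w‖ + ‖y - w‖ ^ (-(1+h)) * ‖F w‖) := by
          refine norm_integral_le_of_norm_le ((hKx.add hKy).const_mul _) ?_
          filter_upwards [hne x, hne y] with w hwx hwy
          have q := inv_sub_inv_le (sub_ne_zero.2 (Ne.symm hwx)) (sub_ne_zero.2 (Ne.symm hwy)) hh hh1
          rw [norm_smul]
          have e3 : x - w - (y - w) = x - y := by ring
          rw [e3] at q
          calc ‖(x - w)⁻¹ - (y - w)⁻¹‖ * ‖F w‖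
              ≤ (2 * ‖x - y‖ ^ h * (‖x - w‖ ^ (-(1 + h)) + ‖y - w‖ ^ (-(1 + h)))) * ‖F w‖ := by
                gcongr
            _ = _ := by ring
      _ = 2 * ‖x - y‖ ^ h * ((∫ w in ball (0 : ℂ) 1, ‖x - w‖ ^ (-(1+h)) * ‖F w‖) +
            ∫ w in ball (0 : ℂ) 1, ‖y - w‖ ^ (-(1+h)) * ‖F w‖) := by
          rw [integral_const_mul, integral_add hKx hKy]
      _ ≤ _ := by
          gcongr
          · exact hF.integral_ker_le hA hG (by linarith) (by linarith) x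
          · exact hF.integral_ker_le hA hG (by linarith) (by linarith) y
  rw [e1, norm_smul, norm_inv, Complex.norm_real, Real.norm_eq_abs, abs_of_pos hpi]
  calc Real.pi⁻¹ * ‖∫ w in ball (0 : ℂ) 1, ((x - w)⁻¹ - (y - w)⁻¹) • F w‖
      ≤ Real.pi⁻¹ * (2 * ‖x - y‖ ^ h * (A * (K * kc (1 + h) ε) + A * (K * kc (1 + h) ε))) := by
        gcongr
    _ = _ := by field_simp; ring

theorem continuous_cauT (hF : Dom G A 0 F) (hA : 0 ≤ A) (hG : Mor K ε G) (hε : 0 < ε) :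
    Continuous (cauT F) := by
  set h := min 1 (ε/2) with hh
  have hhp : 0 < h := lt_min one_pos (half_pos hε)
  have hh1 : h ≤ 1 := min_le_left _ _
  have hhε : h < ε := (min_le_right _ _).trans_lt (half_lt_self hε)
  set L := 4 * (A * (K * kc (1 + h) ε)) / Real.pi with hL
  rw [continuous_iff_continuousAt]
  intro x
  rw [ContinuousAt, tendsto_iff_norm_sub_tendsto_zero]
  have h1 : Tendsto (fun y => L * ‖y - x‖ ^ h) (𝓝 x) (𝓝 (L * ‖x - x‖ ^ h)) := by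
    refine Tendsto.const_mul _ ?_
    have : Continuous fun y : ℂ => ‖y - x‖ := by fun_prop
    exact (this.tendsto x).rpow_const (Or.inr hhp.le)
  rw [sub_self, norm_zero, Real.zero_rpow hhp.ne', mul_zero] at h1
  exact squeeze_zero (fun _ => norm_nonneg _) (fun y => hF.cauT_holder hA hG hε hhp.le hh1 hhε y x) h1

end Dom

/-- kernel estimate for the gain at the centre -/
theorem gain_kernel {θ h : ℝ} (hθ : 0 ≤ θ) (hh : 0 < h) (hθh : θ + h ≤ 1) {z w : ℂ} (hz : z ≠ 0)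
    (hw : w ≠ 0) (hzw : z ≠ w) :
    ‖(z - w)⁻¹ - (0 - w)⁻¹‖ * ‖w‖ ^ θ ≤
      8 * ‖z‖ ^ (θ + h) * (‖z - w‖ ^ (-(1 + h)) + ‖w‖ ^ (-(1 + h))) := by
  have p1 : 0 < ‖z‖ := norm_pos_iff.2 hz
  have p2 : 0 < ‖w‖ := norm_pos_iff.2 hw
  have p3 : 0 < ‖z - w‖ := norm_pos_iff.2 (sub_ne_zero.2 hzw)
  have e3 : ‖(z - w)⁻¹ - (0 - w)⁻¹‖ = ‖z‖ * (‖z - w‖⁻¹ * ‖w‖⁻¹) := by
    have hzw' : z - w ≠ 0 := sub_ne_zero.2 hzw
    have hw' : (0 : ℂ) - w ≠ 0 := by simpa using hw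
    have : (z - w)⁻¹ - (0 - w)⁻¹ = - (z * ((z - w)⁻¹ * (0 - w)⁻¹)) := by
      field_simp
      ring
    rw [this, norm_neg, norm_mul, norm_mul, norm_inv, norm_inv, zero_sub, norm_neg]
  rw [e3]
  have hA : ‖z - w‖ ^ (-(1 + h)) = ‖z - w‖⁻¹ * ‖z - w‖ ^ (-h) := by
    rw [← Real.rpow_neg_one, ← Real.rpow_add p3]; congr 1; ring
  have hB : ‖w‖ ^ (-(1 + h)) = ‖w‖⁻¹ * ‖w‖ ^ (-h) := by
    rw [← Real.rpow_neg_one, ← Real.rpow_add p2]; congr 1; ring
  have hC : ‖z‖ ^ (θ + h) = ‖z‖ ^ θ * ‖z‖ ^ h := Real.rpow_add p1 _ _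
  have tri : ‖z‖ ≤ ‖z - w‖ + ‖w‖ := by
    have := norm_add_le (z - w) w
    rwa [sub_add_cancel] at this
  have tri2 : ‖w‖ ≤ ‖z - w‖ + ‖z‖ := by
    have := norm_sub_le z (z - w)
    rw [sub_sub_cancel] at this
    linarith
  have n1 : 0 ≤ ‖z - w‖ ^ (-(1 + h)) := by positivity
  have n2 : 0 ≤ ‖w‖ ^ (-(1 + h)) := by positivity
  have hθ1 : θ ≤ 1 := by linarith
  by_cases c1 : ‖z - w‖ ≤ ‖z‖ / 2
  · -- close to z
    have q1 : ‖z‖ / 2 ≤ ‖w‖ := by linarith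
    have q2 : ‖w‖ ≤ 2 * ‖z‖ := by linarith
    have q3 : ‖z‖ * ‖w‖⁻¹ ≤ 2 := by
      rw [← div_eq_mul_inv, div_le_iff₀ p2]; linarith
    have q4 : ‖w‖ ^ θ ≤ 2 * ‖z‖ ^ θ := by
      calc ‖w‖ ^ θ ≤ (2 * ‖z‖) ^ θ := Real.rpow_le_rpow p2.le q2 hθ
        _ = 2 ^ θ * ‖z‖ ^ θ := Real.mul_rpow (by norm_num) p1.le
        _ ≤ 2 * ‖z‖ ^ θ := by
            gcongr
            calc (2:ℝ) ^ θ ≤ 2 ^ (1:ℝ) := Real.rpow_le_rpow_of_exponent_le (by norm_num) hθ1
              _ = 2 := Real.rpow_one _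
    have q5 : 1 ≤ ‖z‖ ^ h * ‖z - w‖ ^ (-h) := by
      rw [Real.rpow_neg p3.le, ← div_eq_mul_inv, le_div_iff₀ (by positivity), one_mul]
      exact Real.rpow_le_rpow p3.le (by linarith) hh.le
    calc ‖z‖ * (‖z - w‖⁻¹ * ‖w‖⁻¹) * ‖w‖ ^ θ = (‖z‖ * ‖w‖⁻¹) * ‖z - w‖⁻¹ * ‖w‖ ^ θ := by ring
      _ ≤ 2 * ‖z - w‖⁻¹ * (2 * ‖z‖ ^ θ) := by gcongr
      _ = 4 * (‖z‖ ^ θ * ‖z - w‖⁻¹) * 1 := by ring
      _ ≤ 4 * (‖z‖ ^ θ * ‖z - w‖⁻¹) * (‖z‖ ^ h * ‖z - w‖ ^ (-h)) := by gcongr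
      _ = 4 * ‖z‖ ^ (θ + h) * ‖z - w‖ ^ (-(1 + h)) := by rw [hC, hA]; ring
      _ ≤ 8 * ‖z‖ ^ (θ + h) * (‖z - w‖ ^ (-(1 + h)) + ‖w‖ ^ (-(1 + h))) := by
          have : 0 ≤ ‖z‖ ^ (θ + h) := by positivity
          nlinarith [mul_nonneg this n1, mul_nonneg this n2]
  · push Not at c1
    have q1 : ‖z‖ * ‖z - w‖⁻¹ ≤ 2 := by
      rw [← div_eq_mul_inv, div_le_iff₀ p3]; linarith
    by_cases c2 : ‖w‖ ≤ 2 * ‖z‖
    · have q2 : ‖w‖ ^ θ ≤ 2 * (‖z‖ ^ (θ + h) * ‖w‖ ^ (-h)) := by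
        have q3 : ‖w‖ ^ θ = ‖w‖ ^ (θ + h) * ‖w‖ ^ (-h) := by
          rw [← Real.rpow_add p2]; congr 1; ring
        rw [q3]
        have q4 : ‖w‖ ^ (θ + h) ≤ 2 * ‖z‖ ^ (θ + h) := by
          calc ‖w‖ ^ (θ + h) ≤ (2 * ‖z‖) ^ (θ + h) :=
                Real.rpow_le_rpow p2.le c2 (by linarith)
            _ = 2 ^ (θ + h) * ‖z‖ ^ (θ + h) := Real.mul_rpow (by norm_num) p1.le
            _ ≤ 2 * ‖z‖ ^ (θ + h) := by
                gcongr
                calc (2:ℝ) ^ (θ + h) ≤ 2 ^ (1:ℝ) :=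
                      Real.rpow_le_rpow_of_exponent_le (by norm_num) hθh
                  _ = 2 := Real.rpow_one _
        calc ‖w‖ ^ (θ + h) * ‖w‖ ^ (-h) ≤ (2 * ‖z‖ ^ (θ + h)) * ‖w‖ ^ (-h) := by gcongr
          _ = _ := by ring
      calc ‖z‖ * (‖z - w‖⁻¹ * ‖w‖⁻¹) * ‖w‖ ^ θ = (‖z‖ * ‖z - w‖⁻¹) * ‖w‖⁻¹ * ‖w‖ ^ θ := by ring
        _ ≤ 2 * ‖w‖⁻¹ * (2 * (‖z‖ ^ (θ + h) * ‖w‖ ^ (-h))) := by gcongr
        _ = 4 * ‖z‖ ^ (θ + h) * ‖w‖ ^ (-(1 + h)) := by rw [hB]; ring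
        _ ≤ _ := by
            have : 0 ≤ ‖z‖ ^ (θ + h) := by positivity
            nlinarith [mul_nonneg this n1, mul_nonneg this n2]
    · push Not at c2
      have q2 : ‖z - w‖⁻¹ ≤ 2 * ‖w‖⁻¹ := by
        have : ‖w‖ / 2 ≤ ‖z - w‖ := by linarith
        calc ‖z - w‖⁻¹ ≤ (‖w‖ / 2)⁻¹ := inv_anti₀ (by positivity) this
          _ = 2 * ‖w‖⁻¹ := by field_simp
      have q3 : ‖z‖ = ‖z‖ ^ (θ + h) * ‖z‖ ^ (1 - θ - h) := by
        rw [← Real.rpow_add p1]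
        rw [show θ + h + (1 - θ - h) = 1 by ring, Real.rpow_one]
      have q4 : ‖z‖ ^ (1 - θ - h) ≤ ‖w‖ ^ (1 - θ - h) :=
        Real.rpow_le_rpow p1.le (by linarith) (by linarith)
      have q5 : ‖w‖ ^ (1 - θ - h) * (‖w‖⁻¹ * ‖w‖⁻¹) * ‖w‖ ^ θ = ‖w‖ ^ (-(1 + h)) := by
        have : ‖w‖⁻¹ = ‖w‖ ^ (-1 : ℝ) := (Real.rpow_neg_one _).symm
        rw [this, ← Real.rpow_add p2, ← Real.rpow_add p2, ← Real.rpow_add p2]
        congr 1; ring
      calc ‖z‖ * (‖z - w‖⁻¹ * ‖w‖⁻¹) * ‖w‖ ^ θ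
          ≤ (‖z‖ ^ (θ + h) * ‖w‖ ^ (1 - θ - h)) * ((2 * ‖w‖⁻¹) * ‖w‖⁻¹) * ‖w‖ ^ θ := by
            gcongr
            calc ‖z‖ = ‖z‖ ^ (θ + h) * ‖z‖ ^ (1 - θ - h) := q3
              _ ≤ _ := by gcongr
        _ = 2 * ‖z‖ ^ (θ + h) * (‖w‖ ^ (1 - θ - h) * (‖w‖⁻¹ * ‖w‖⁻¹) * ‖w‖ ^ θ) := by ring
        _ = 2 * ‖z‖ ^ (θ + h) * ‖w‖ ^ (-(1 + h)) := by rw [q5]
        _ ≤ _ := by
            have : 0 ≤ ‖z‖ ^ (θ + h) := by positivity
            nlinarith [mul_nonneg this n1, mul_nonneg this n2]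

end Vale.Agent.P247.H324
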