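import Vale.Agent.P247.H324.SPM.Main

/-! The similarity principle with a Morrey coefficient on an arbitrary disc. -/

open MeasureTheory Set Metric Filter Topology Asymptotics
open scoped ContDiff ENNReal

set_option linter.unusedSectionVars false

noncomputable section

namespace Vale.Agent.P247.H324

open Vale.Agent.P272.CT

variable {E : Type*} [NormedAddCommGroup E] [NormedSpace ℂ E]

/-- the affine map `z ↦ c + ρ z` -/
def sc (c : ℂ) (ρ : ℝ) (z : ℂ) : ℂ := c + ρ • z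

theorem sc_eq (c : ℂ) (ρ : ℝ) (z : ℂ) : sc c ρ z = c + (ρ:ℂ) * z := by
  simp [sc]

theorem hasFDerivAt_sc (c : ℂ) (ρ : ℝ) (z : ℂ) :
    HasFDerivAt (sc c ρ) (ρ • ContinuousLinearMap.id ℝ ℂ) z := by
  have h1 : HasFDerivAt (fun z : ℂ => ρ • z) (ρ • ContinuousLinearMap.id ℝ ℂ) z :=
    (hasFDerivAt_id z).const_smul ρ
  exact h1.const_add c

theorem sc_injective (c : ℂ) {ρ : ℝ} (hρ : 0 < ρ) : Function.Injective (sc c ρ) := by
  intro z w h
  unfold sc at h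
  have h1 := add_left_cancel h
  exact smul_right_injective ℂ hρ.ne' h1

theorem sc_quasi (c : ℂ) {ρ : ℝ} (hρ : 0 < ρ) :
    Measure.QuasiMeasurePreserving (sc c ρ) volume volume := by
  have h1 := Measure.quasiMeasurePreserving_smul (volume : Measure ℂ) (r := ρ) hρ.ne'
  have h2 : Measure.QuasiMeasurePreserving (fun z : ℂ => c + z) volume volume :=
    (measurePreserving_add_left volume c).quasiMeasurePreserving
  exact h2.comp h1

theorem sc_image_ball (c x : ℂ) {ρ : ℝ} (hρ : 0 < ρ) (r : ℝ) :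
    sc c ρ '' (ball x r) = ball (sc c ρ x) (ρ * r) := by
  ext w
  constructor
  · rintro ⟨z, hz, rfl⟩
    rw [mem_ball, dist_eq_norm] at *
    have : sc c ρ z - sc c ρ x = ρ • (z - x) := by simp only [sc, smul_sub]; abel
    rw [this, norm_smul, Real.norm_of_nonneg hρ.le]
    gcongr
  · intro hw
    refine ⟨ρ⁻¹ • (w - c), ?_, ?_⟩
    · rw [mem_ball, dist_eq_norm] at *
      have : ρ⁻¹ • (w - c) - x = ρ⁻¹ • (w - sc c ρ x) := by
        simp only [sc, smul_sub, smul_add, smul_smul, inv_mul_cancel₀ hρ.ne', one_smul]; abel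
      rw [this, norm_smul, norm_inv, Real.norm_of_nonneg hρ.le, inv_mul_lt_iff₀ hρ]
      exact hw
    · simp only [sc, smul_smul, mul_inv_cancel₀ hρ.ne', one_smul]; abel

theorem sc_lintegral (c : ℂ) {ρ : ℝ} (hρ : 0 < ρ) {s : Set ℂ} (hs : MeasurableSet s)
    (g : ℂ → ℝ≥0∞) :
    ∫⁻ z in s, g (sc c ρ z) = ENNReal.ofReal ((ρ ^ 2)⁻¹) * ∫⁻ w in sc c ρ '' s, g w := by
  have h := lintegral_image_eq_lintegral_abs_det_fderiv_mul (volume : Measure ℂ) hs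
    (f := sc c ρ) (f' := fun _ => ρ • ContinuousLinearMap.id ℝ ℂ)
    (fun z _ => (hasFDerivAt_sc c ρ z).hasFDerivWithinAt) (sc_injective c hρ).injOn g
  have hdet : (ρ • ContinuousLinearMap.id ℝ ℂ).det = ρ ^ 2 := by
    show LinearMap.det (ρ • (LinearMap.id : ℂ →ₗ[ℝ] ℂ)) = ρ ^ 2
    rw [LinearMap.det_smul, LinearMap.det_id, Complex.finrank_real_complex, mul_one]
  rw [h]
  simp only [hdet]
  rw [abs_of_nonneg (by positivity : (0:ℝ) ≤ ρ ^ 2),
    lintegral_const_mul' _ _ ENNReal.ofReal_ne_top, ← mul_assoc,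
    ← ENNReal.ofReal_mul (by positivity), inv_mul_cancel₀ (by positivity), ENNReal.ofReal_one,
    one_mul]

theorem sc_integral (c : ℂ) {ρ : ℝ} (hρ : 0 < ρ) (g : ℂ → E) :
    ∫ z, g (sc c ρ z) = ((ρ ^ 2)⁻¹ : ℝ) • ∫ w, g w := by
  have h1 := Measure.integral_comp_smul (volume : Measure ℂ) (fun w => g (c + w)) ρ
  rw [Complex.finrank_real_complex, abs_of_nonneg (by positivity : (0:ℝ) ≤ (ρ^2)⁻¹)] at h1
  rw [show (∫ z, g (sc c ρ z)) = ∫ z, (fun w => g (c + w)) (ρ • z) from rfl, h1]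
  congr 1
  exact integral_add_left_eq_self g c

/-- rescaling of the weak derivative -/
theorem WDb.scale {c : ℂ} {ρ : ℝ} (hρ : 0 < ρ) {Ω Ω' : Set ℂ} {u q : ℂ → E} (h : WDb Ω u q)
    (hm : MapsTo (sc c ρ) Ω' Ω) :
    WDb Ω' (fun z => u (sc c ρ z)) fun z => (ρ:ℂ) • q (sc c ρ z) := by
  intro η h1 h2 h3
  set η' : ℂ → ℂ := fun w => η (sc (-(ρ⁻¹ • c)) ρ⁻¹ w) with hη'
  have hinv : ∀ z, sc (-(ρ⁻¹ • c)) ρ⁻¹ (sc c ρ z) = z := by
    intro z
    simp only [sc, smul_add, smul_smul, inv_mul_cancel₀ hρ.ne', one_smul]; abel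
  have hinv' : ∀ z, sc c ρ (sc (-(ρ⁻¹ • c)) ρ⁻¹ z) = z := by
    intro z
    simp only [sc, smul_add, smul_neg, smul_smul, mul_inv_cancel₀ hρ.ne', one_smul]; abel
  have hη'z : ∀ z, η' (sc c ρ z) = η z := fun z => by simp only [hη', hinv]
  have hcs : ContDiff ℝ ∞ (sc (-(ρ⁻¹ • c)) ρ⁻¹) := by
    unfold sc; fun_prop
  have hcont : Continuous (sc c ρ) := by unfold sc; fun_prop
  have hcont' : Continuous (sc (-(ρ⁻¹ • c)) ρ⁻¹) := hcs.continuous
  have hs' : ContDiff ℝ ∞ η' := h1.comp hcs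
  let e : ℂ ≃ₜ ℂ := ⟨⟨sc (-(ρ⁻¹ • c)) ρ⁻¹, sc c ρ, hinv', hinv⟩, hcont', hcont⟩
  have hc' : HasCompactSupport η' := h2.comp_homeomorph e
  have hts : tsupport η' ⊆ Ω := by
    intro w hw
    have h5 : sc (-(ρ⁻¹ • c)) ρ⁻¹ w ∈ tsupport η := by
      have : tsupport η' ⊆ (sc (-(ρ⁻¹ • c)) ρ⁻¹) ⁻¹' (tsupport η) := by
        refine closure_minimal ?_ ((isClosed_tsupport η).preimage hcont')
        intro x hx
        exact subset_tsupport η hx
      exact this hw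
    have h6 := hm (h3 h5)
    rwa [hinv'] at h6
  have key := h η' hs' hc' hts
  have hdb : ∀ z, dbar η z = (ρ:ℂ) * dbar η' (sc c ρ z) := by
    intro z
    have e1 : HasFDerivAt (fun z => η' (sc c ρ z)) ((fderiv ℝ η' (sc c ρ z)) ∘L
        (ρ • ContinuousLinearMap.id ℝ ℂ)) z :=
      ((hs'.differentiable (by simp)) (sc c ρ z)).hasFDerivAt.comp z (hasFDerivAt_sc c ρ z)
    have e2 : (fun z => η' (sc c ρ z)) = η := funext hη'z
    rw [e2] at e1
    unfold dbar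
    rw [e1.fderiv]
    simp
    ring
  have e1 : ∫ z, dbar η z • u (sc c ρ z) = ((ρ ^ 2)⁻¹ : ℝ) • ((ρ:ℂ) • ∫ w, dbar η' w • u w) := by
    rw [← integral_smul, ← sc_integral c hρ (fun w => (ρ:ℂ) • dbar η' w • u w)]
    refine integral_congr_ae (Eventually.of_forall fun z => ?_)
    simp only
    rw [hdb, mul_smul]
  have e2 : ∫ z, η z • (ρ:ℂ) • q (sc c ρ z) = ((ρ ^ 2)⁻¹ : ℝ) • ((ρ:ℂ) • ∫ w, η' w • q w) := by
    rw [← integral_smul, ← sc_integral c hρ (fun w => (ρ:ℂ) • η' w • q w)]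
    refine integral_congr_ae (Eventually.of_forall fun z => ?_)
    simp only
    rw [hη'z, smul_comm]
  rw [e1, e2, key, smul_neg, smul_neg]

/-- **SPM**: local form of the solutions of `‖∂̄u‖ ≤ G ‖u‖`, weak derivative, `G` in a Morrey
class, `u` bounded and continuous on a punctured disc. -/
theorem spm_local [CompleteSpace E] {u q : ℂ → E} {G : ℂ → ℝ≥0∞} {c : ℂ} {R K ε A : ℝ} (hR : 0 < R)
    (hε : 0 < ε) (hK : 0 ≤ K) (hG : AEMeasurable G (volume.restrict (ball c R)))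
    (hM : ∀ x : ℂ, ∀ ρ : ℝ, 0 < ρ → ∫⁻ w in ball x ρ ∩ ball c R, G w ≤ ENNReal.ofReal (K * ρ ^ (1 + ε)))
    (hu : ContinuousOn u (ball c R \ {c})) (hb : ∀ z ∈ ball c R \ {c}, ‖u z‖ ≤ A)
    (hqm : AEStronglyMeasurable q (volume.restrict (ball c R)))
    (hq : ∀ᵐ w ∂(volume.restrict (ball c R)), ‖q w‖ₑ ≤ G w * ‖u w‖ₑ)
    (hw : WDb (ball c R \ {c}) u q) :
    (∃ r > 0, ∀ z ∈ ball c r \ {c}, u z = 0) ∨ ∃ m : ℕ, ∃ a : E, a ≠ 0 ∧ ∃ K' s r : ℝ, 0 ≤ K' ∧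
      0 < s ∧ 0 < r ∧ ∀ z ∈ ball c r \ {c}, ‖((z - c) ^ m)⁻¹ • u z - a‖ ≤ K' * ‖z - c‖ ^ s := by
  -- the scale
  have hkc := kc_pos (β := 1) (ε := ε) (by linarith)
  have hpi := Real.pi_pos
  obtain ⟨ρ, hρ, hρR, hρ1, hsmall⟩ : ∃ ρ : ℝ, 0 < ρ ∧ ρ ≤ R ∧ ρ ≤ 1 ∧
      (K * ρ ^ ε) * kc 1 ε / Real.pi ≤ 1/4 := by
    have h1 : Tendsto (fun ρ : ℝ => (K * ρ ^ ε) * kc 1 ε / Real.pi) (𝓝[>] 0) (𝓝 0) := by
      have h2 : Tendsto (fun ρ : ℝ => ρ ^ ε) (𝓝[>] 0) (𝓝 0) := by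
        have h3 : ContinuousAt (fun ρ : ℝ => ρ ^ ε) 0 :=
          Real.continuousAt_rpow_const 0 ε (Or.inr hε.le)
        have h4 := h3.tendsto
        rw [Real.zero_rpow hε.ne'] at h4
        exact h4.mono_left nhdsWithin_le_nhds
      have h5 := ((h2.const_mul K).mul_const (kc 1 ε)).div_const Real.pi
      simpa using h5
    have h6 : ∀ᶠ ρ : ℝ in 𝓝[>] 0, (K * ρ ^ ε) * kc 1 ε / Real.pi < 1/4 :=
      h1.eventually (gt_mem_nhds (by norm_num))
    have h7 : ∀ᶠ ρ : ℝ in 𝓝[>] 0, ρ ∈ Ioo (0:ℝ) (min R 1) := Ioo_mem_nhdsGT (lt_min hR one_pos)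
    obtain ⟨ρ, hρ1, hρ2⟩ := (h6.and h7).exists
    exact ⟨ρ, hρ2.1, (hρ2.2.trans_le (min_le_left _ _)).le, (hρ2.2.trans_le (min_le_right _ _)).le,
      hρ1.le⟩
  have hmaps1 : MapsTo (sc c ρ) (ball 0 1) (ball c R) := by
    intro z hz
    have h1 : sc c ρ z ∈ sc c ρ '' ball 0 1 := mem_image_of_mem _ hz
    rw [sc_image_ball c 0 hρ 1] at h1
    have h2 : sc c ρ 0 = c := by simp [sc]
    rw [h2, mul_one] at h1
    exact ball_subset_ball hρR h1
  have hmaps2 : MapsTo (sc c ρ) pd (ball c R \ {c}) := by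
    intro z hz
    refine ⟨hmaps1 hz.1, ?_⟩
    intro h
    have : sc c ρ z = sc c ρ 0 := by rw [h]; simp [sc]
    exact hz.2 (sc_injective c hρ this)
  have hquasi : Measure.QuasiMeasurePreserving (sc c ρ) (volume.restrict (ball 0 1))
      (volume.restrict (ball c R)) := (sc_quasi c hρ).restrict hmaps1
  set u' : ℂ → E := fun z => u (sc c ρ z) with hu'
  set q' : ℂ → E := fun z => (ρ:ℂ) • q (sc c ρ z) with hq'
  set G' : ℂ → ℝ≥0∞ := fun z => ENNReal.ofReal ρ * G (sc c ρ z) with hG'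
  have hcont : Continuous (sc c ρ) := by unfold sc; fun_prop
  have hmor : Mor (K * ρ ^ ε) ε G' := by
    refine ⟨(hG.comp_quasiMeasurePreserving hquasi).const_mul _, by positivity, fun x r hr => ?_⟩
    rw [lintegral_const_mul' _ _ ENNReal.ofReal_ne_top,
      sc_lintegral c hρ (measurableSet_ball.inter measurableSet_ball) G]
    have himg : sc c ρ '' (ball x r ∩ ball 0 1) ⊆ ball (sc c ρ x) (ρ * r) ∩ ball c R := by
      rintro _ ⟨z, ⟨hz1, hz2⟩, rfl⟩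
      refine ⟨?_, hmaps1 hz2⟩
      rw [← sc_image_ball c x hρ r]
      exact mem_image_of_mem _ hz1
    calc ENNReal.ofReal ρ * (ENNReal.ofReal ((ρ ^ 2)⁻¹) *
          ∫⁻ w in sc c ρ '' (ball x r ∩ ball 0 1), G w)
        ≤ ENNReal.ofReal ρ * (ENNReal.ofReal ((ρ ^ 2)⁻¹) *
          ENNReal.ofReal (K * (ρ * r) ^ (1 + ε))) := by
          gcongr
          exact (lintegral_mono_set himg).trans (hM _ _ (by positivity))
      _ = ENNReal.ofReal (K * ρ ^ ε * r ^ (1 + ε)) := by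
          rw [← ENNReal.ofReal_mul (by positivity), ← ENNReal.ofReal_mul (by positivity)]
          congr 1
          rw [Real.mul_rpow hρ.le hr.le, Real.rpow_add hρ, Real.rpow_one]
          field_simp
  have hcarl : WCarl (K * ρ ^ ε) ε (max A 0) G' u' q' := by
    refine ⟨hmor, hε, le_max_right _ _, hu.comp hcont.continuousOn hmaps2,
      fun z hz => (hb _ (hmaps2 hz)).trans (le_max_left _ _), ?_, ?_, WDb.scale hρ hw hmaps2⟩
    · exact (hqm.comp_quasiMeasurePreserving hquasi).const_smul (ρ:ℂ)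
    · filter_upwards [hquasi.ae hq] with z hz
      simp only [hq', hG', hu']
      rw [enorm_smul, mul_assoc]
      have : ‖(ρ:ℂ)‖ₑ = ENNReal.ofReal ρ := by
        rw [← ofReal_norm, Complex.norm_real, Real.norm_of_nonneg hρ.le]
      rw [this]
      gcongr
  have hback : ∀ z ∈ ball c ρ \ {c}, ((ρ:ℂ)⁻¹ * (z - c)) ∈ pd ∧ sc c ρ ((ρ:ℂ)⁻¹ * (z - c)) = z := by
    intro z hz
    have hρc : (ρ:ℂ) ≠ 0 := by exact_mod_cast hρ.ne'
    refine ⟨⟨?_, ?_⟩, ?_⟩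
    · rw [mem_ball_zero_iff, norm_mul, norm_inv, Complex.norm_real, Real.norm_of_nonneg hρ.le,
        inv_mul_lt_iff₀ hρ, mul_one, ← dist_eq_norm]
      exact hz.1
    · simpa [hρc, sub_eq_zero] using hz.2
    · rw [sc_eq, mul_inv_cancel_left₀ hρc]; ring
  rcases hcarl.main hsmall with h0 | ⟨m, a, ha, K', s, hK', hs, h1⟩
  · left
    refine ⟨ρ, hρ, fun z hz => ?_⟩
    obtain ⟨h2, h3⟩ := hback z hz
    have := h0 _ h2
    simp only [hu', h3] at this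
    exact this
  · right
    have hρc : (ρ:ℂ) ≠ 0 := by exact_mod_cast hρ.ne'
    refine ⟨m, ((ρ:ℂ) ^ m)⁻¹ • a, smul_ne_zero (inv_ne_zero (pow_ne_zero m hρc)) ha,
      (ρ ^ m)⁻¹ * (K' * (ρ ^ s)⁻¹), s, ρ, by positivity, hs, hρ, fun z hz => ?_⟩
    obtain ⟨h2, h3⟩ := hback z hz
    have h4 := h1 _ h2
    simp only [hu', h3] at h4
    have e1 : ((z - c) ^ m)⁻¹ • u z - ((ρ:ℂ) ^ m)⁻¹ • a =
        ((ρ:ℂ) ^ m)⁻¹ • ((((ρ:ℂ)⁻¹ * (z - c)) ^ m)⁻¹ • u z - a) := by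
      rw [smul_sub, smul_smul]
      congr 2
      rw [mul_pow, inv_pow]
      field_simp
    rw [e1, norm_smul, norm_inv, norm_pow, Complex.norm_real, Real.norm_of_nonneg hρ.le, mul_assoc]
    refine mul_le_mul_of_nonneg_left ?_ (by positivity)
    refine h4.trans (le_of_eq ?_)
    rw [norm_mul, norm_inv, Complex.norm_real, Real.norm_of_nonneg hρ.le,
      Real.mul_rpow (by positivity) (norm_nonneg _), Real.inv_rpow hρ.le]
    ring

end Vale.Agent.P247.H324
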